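import Vale.Agent.P057.H466.Fin

namespace Vale.Agent.Results.P057.LastLevel

/-- Lower bounds for sets without `k`-term arithmetic progressions: the first, the second and the
last level of the construction of Rankin and O'Bryant are improved. `κ` replaces `log 2` (first
level), `l` replaces `log 4` (second level), `1 - 1 / m` is new (last level). -/
theorem result :
    ∀ (k n : ℕ) (κ l : ℝ), n = Nat.clog 2 k →
      ((5 ≤ k ∧ κ = Real.log (12 / 7)) ∨ (6 ≤ k ∧ κ = Real.log (5 / 3)) ∨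
        (7 ≤ k ∧ κ = Real.log (14 / 9)) ∨ (8 ≤ k ∧ κ = Real.log (48 / 31)) ∨
        (9 ≤ k ∧ κ = Real.log (3 / 2)) ∨ (12 ≤ k ∧ κ = Real.log (60 / 41)) ∨
        (16 ≤ k ∧ κ = Real.log (288 / 211)) ∨ (24 ≤ k ∧ κ = Real.log (720 / 547)) ∨
        (32 ≤ k ∧ κ = Real.log (720 / 553)) ∨
        ∃ B : ℕ, 3 ≤ B ∧
          (2 * (B : ℝ) ^ 2 * (B + 1) ≤ k + 1 ∨ 12 * (B : ℝ) ^ 2 * (1 + Real.log k) ≤ k + 1) ∧
          κ = Real.log (B / (B - 2))) →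
      (l = Real.log 4 ∨ (8 ≤ k ∧ l = Real.log (48 / 13)) ∨ (9 ≤ k ∧ l = Real.log (24 / 7))) →
      (∀ ε : ℝ, 0 < ε → ∃ N₀ : ℕ, ∀ N : ℕ, N₀ ≤ N →
        ∃ A : Finset ℕ, A ⊆ Finset.Icc 1 N ∧
          (∀ a d : ℕ, 0 < d → ¬ ∀ j < k, a + j * d ∈ A) ∧
          (N : ℝ) * Real.exp (-((1 + ε) * n *
            (2 ^ (n * (n - 1) / 2 - 1) * Real.log 2 ^ (n - 3) * κ * l *
              Real.log N) ^ ((1 : ℝ) / n))) ≤ A.card) ∧
      (∀ p m : ℕ, p.Prime → 2 ^ (n - 1) + 2 ≤ p → p ≤ k →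
        3 ≤ m → (m + 2) * 2 ^ (n - 1) < m * k →
        ∀ ε : ℝ, 0 < ε → ∃ N₀ : ℕ, ∀ N : ℕ, N₀ ≤ N →
          ∃ A : Finset ℕ, A ⊆ Finset.Icc 1 N ∧
            (∀ a d : ℕ, 0 < d → ¬ ∀ j < k, a + j * d ∈ A) ∧
            (N : ℝ) * Real.exp (-((1 + ε) * n *
              (2 ^ (n * (n - 1) / 2 - 1) * Real.log 2 ^ (n - 3) * κ * l * (1 - 1 / (m : ℝ)) *
                Real.log N) ^ ((1 : ℝ) / n))) ≤ A.card) ∧
      (3 ≤ n → k = 2 ^ n →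
        ∀ ε : ℝ, 0 < ε → ∃ N₀ : ℕ, ∀ N : ℕ, N₀ ≤ N →
          ∃ A : Finset ℕ, A ⊆ Finset.Icc 1 N ∧
            (∀ a d : ℕ, 0 < d → ¬ ∀ j < k, a + j * d ∈ A) ∧
            (N : ℝ) * Real.exp (-((1 + ε) * n *
              (2 ^ (n * (n - 1) / 2 - 1) * Real.log 2 ^ (n - 3) * κ * l * (2 / 3) *
                Real.log N) ^ ((1 : ℝ) / n))) ≤ A.card) := by
  intro k n κ l hn hκ hl
  refine ⟨fun ε hε => ?_, fun p m hp hp1 hp2 hm hkm ε hε => ?_, fun hn3 hk ε hε => ?_⟩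
  · exact Vale.Agent.P057.H466.first_level k n hn κ l hκ hl ε hε
  · exact Vale.Agent.P057.H466.last_level k n p m hn hp hp1 hp2 hm hkm κ l hκ hl ε hε
  · subst hk
    exact Vale.Agent.P057.H466.power_of_two n hn3 κ l hκ hl ε hε

end Vale.Agent.Results.P057.LastLevel
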