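import Vale.Agent.P057.H829.PowTwo

namespace Vale.Agent.Results.P057.SmallConstant

/-- Lower bounds for sets without `k`-term arithmetic progressions, `k` large: the constant
`C_k = n 2 ^ ((n - 1) / 2) (log 2) ^ ((n - 1) / n)`, `n = ⌈log₂ k⌉`, of Rankin and O'Bryant is
replaced by `n ^ (-1 / 6) C_k`. -/
theorem result :
    ∃ K : ℕ, ∀ k : ℕ, K ≤ k → ∀ n : ℕ, n = Nat.clog 2 k →
      ∃ N₀ : ℕ, ∀ N : ℕ, N₀ ≤ N → ∃ A : Finset ℕ, A ⊆ Finset.Icc 1 N ∧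
        (∀ a d : ℕ, 0 < d → ¬ ∀ j < k, a + j * d ∈ A) ∧
        (N : ℝ) * Real.exp (-((n : ℝ) ^ (-(1 : ℝ) / 6) *
          ((n : ℝ) * (2 : ℝ) ^ (((n : ℝ) - 1) / 2) *
            Real.log 2 ^ (((n : ℝ) - 1) / n)) * Real.log N ^ ((1 : ℝ) / n))) ≤ A.card :=
  Vale.Agent.P057.H829.quant6

end Vale.Agent.Results.P057.SmallConstant
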